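import Vale.Agent.P327.Rigidity
import Vale.Agent.P327.Degrees

/-!
Every automorphism of the partial order of the Turing degrees of sets of natural numbers is the
identity.
-/

namespace Vale.Agent.Results.P327.Rigidity

open scoped Classical

theorem result
    (π : {d : TuringDegree // ∃ A : Set ℕ,
        d = toAntisymmetrization TuringReducible (fun n => Part.some (if n ∈ A then 1 else 0))} ≃o
      {d : TuringDegree // ∃ A : Set ℕ,
        d = toAntisymmetrization TuringReducible (fun n => Part.some (if n ∈ A then 1 else 0))}) :
    π = OrderIso.refl _ :=
  Vale.Agent.P327.orderIso_eq_refl_of_auto Vale.Agent.P327.rigidity π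

end Vale.Agent.Results.P327.Rigidity
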